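import Vale.Agent.P007.Fields

/-!
# P007: failure of equidistribution of packets in every composite degree
-/

open MeasureTheory Filter Topology Polynomial NumberField Module
open Vale.Agent.P007

namespace Vale.Agent.Results.P007.SubfieldObstruction

/-- (1) Orders infinitely often containing an irrational root of one fixed monic integral polynomial
never have equidistributing packets. (2) In every composite degree there are maximal orders of
totally real fields with discriminant tending to infinity whose packets do not equidistribute. -/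
theorem result :
    (∀ n : ℕ, 0 < n → ∀ P : ℤ[X], P.Monic →
      ∃ f : Space n → ℝ, Continuous f ∧ HasCompactSupport f ∧
        ∀ (K : ℕ → Type) [∀ i, Field (K i)] (O : ∀ i, Subring (K i))
          (σ : ∀ i, Fin n ≃ (K i →+* ℝ)),
          (∃ᶠ i in atTop, ∃ θ ∈ O i, aeval θ P = 0 ∧ ∀ k : ℤ, (k : K i) ≠ θ) →
          ∀ μ : ℕ → Measure (Space n), (∀ i, IsCarriedBy (μ i) (packet (O i) (σ i))) →
          ∀ m : Measure (Space n), IsInvariantProbability m →
            ¬ Tendsto (fun i => ∫ p, f p ∂μ i) atTop (𝓝 (∫ p, f p ∂m))) ∧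
    (∀ n : ℕ, 2 ≤ n → ¬ n.Prime →
      ∃ (K : ℕ → Type) (_ : ∀ i, Field (K i)) (_ : ∀ i, NumberField (K i))
        (σ : ∀ i, Fin n ≃ (K i →+* ℝ)) (f : Space n → ℝ),
        (∀ i, finrank ℚ (K i) = n) ∧
        Tendsto (fun i => |discr (K i)|) atTop atTop ∧
        (∀ i, (packet (algebraMap (𝓞 (K i)) (K i)).range (σ i)).Nonempty) ∧
        Continuous f ∧ HasCompactSupport f ∧
        ∀ μ : ℕ → Measure (Space n),
          (∀ i, IsCarriedBy (μ i) (packet (algebraMap (𝓞 (K i)) (K i)).range (σ i))) →
          ∀ m : Measure (Space n), IsInvariantProbability m →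
            ¬ Tendsto (fun i => ∫ p, f p ∂μ i) atTop (𝓝 (∫ p, f p ∂m))) := by
  refine ⟨fun n hn P hP => ?_, fun n hn hnp => ?_⟩
  · haveI : NeZero n := ⟨hn.ne'⟩
    exact not_equidistributed hP
  · obtain ⟨d, ⟨e, rfl⟩, hd2, hdn⟩ := Nat.exists_dvd_of_not_prime2 hn hnp
    have he : 2 ≤ e := by
      rcases e with _ | _ | e
      · simp at hn
      · simp at hdn
      · omega
    haveI : NeZero (d * e) := ⟨by omega⟩
    choose K hF hNF σ hrank hdisc θ hθO hθ hθZ using fun i : ℕ => exists_field hd2 he i
    obtain ⟨f, hfc, hfs, hf⟩ := not_equidistributed (n := d * e) (base_monic (d := d) (by omega))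
    refine ⟨K, hF, hNF, σ, f, hrank, ?_, fun i => packet_nonempty (hrank i) (σ i), hfc, hfs,
      fun μ hμ m hm => hf K _ σ ?_ μ hμ m hm⟩
    · exact tendsto_atTop_mono hdisc tendsto_natCast_atTop_atTop
    · exact Frequently.of_forall fun i => ⟨θ i, hθO i, hθ i, hθZ i⟩

end Vale.Agent.Results.P007.SubfieldObstruction
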